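import Vale.Agent.P063.InfluenceMain
import Vale.Agent.P063.Threshold

/-!
The threshold width of a graph or hypergraph property is at most a constant times
`(log n) ^ (-r / (r - 1))`.
-/

open Vale.Agent.P063 in
/-- The Friedgut-Kalai bound for the threshold width, for every uniformity `r ≥ 2`. -/
theorem Vale.Agent.Results.P063.ThresholdWidth.result :
    ∀ r : ℕ, 2 ≤ r → ∀ ε : ℝ, 0 < ε → ε < 1 / 2 → ∃ C : ℝ, ∀ n : ℕ, r ≤ n →
      ∀ P : Set (Finset (Edge n r)), Invariant P → IsUpperSet P → P.Nonempty → P ≠ Set.univ →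
        width P ε ≤ C * Real.log n ^ (-((r : ℝ) / ((r : ℝ) - 1))) :=
  fun r hr => width_le_of_influenceBound r hr (influenceBound r hr)
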